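import Vale.Agent.P262.H63.Main

/-!
# P262: the order of the Euclidean Steinitz constant, with the sharp norm bound for Graver bases and
the proximity bound for integer programs
-/

set_option autoImplicit false

open scoped ENNReal

namespace Vale.Agent.Results.P262.GraverNorm

open Vale.Agent.P262 Vale.Agent.P262.H63

/-- With absolute constants `c, C > 0`: the two constants `S_2(d)` and `σ(d)` of the problem, the
order of the largest `ℓ_1` norm of a Graver basis element of an integer matrix with `m` rows, and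
the distance between optimal vertices and optimal integer solutions of integer programs. -/
theorem result : ∃ c C : ℝ, 0 < c ∧ 0 < C ∧
    -- (1) the two constants `S_2(d)` and `σ(d)` of the problem
    (∀ d : ℕ, 1 ≤ d →
      (ENNReal.ofReal (c * Real.sqrt d) ≤ steinitzConst d ∧
        steinitzConst d ≤ ENNReal.ofReal (C * Real.sqrt d)) ∧
      (ENNReal.ofReal (Real.sqrt d) ≤ signedConst d ∧
        signedConst d ≤ ENNReal.ofReal (C * (Real.sqrt d * Real.log (d + 1))))) ∧
    -- (2) Graver bases: upper bound and matching lower bound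
    (∀ (m n : ℕ) (A : Matrix (Fin m) (Fin n) ℤ) (D : ℝ), 1 ≤ m → 1 ≤ D → ColNormLE A D →
      ∀ u : Fin n → ℤ, IsGraver A u → ∑ j, |(u j : ℝ)| ≤ (C * D) ^ m) ∧
    (∀ (m : ℕ) (D : ℝ), 1 ≤ m → 2 ≤ D → ∃ (n : ℕ) (A : Matrix (Fin m) (Fin n) ℤ)
      (u : Fin n → ℤ), ColNormLE A D ∧ IsGraver A u ∧ (c * D) ^ m ≤ ∑ j, |(u j : ℝ)|) ∧
    -- (3) proximity for integer programs in equality form: upper bound and matching lower bound
    (∀ (m n : ℕ) (A : Matrix (Fin m) (Fin n) ℤ) (D : ℝ), 1 ≤ m → 1 ≤ D → ColNormLE A D →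
      ∀ (b : Fin m → ℤ) (a x : Fin n → ℝ), x ∈ (polyhedron A b).extremePoints ℝ →
        IsOptimal a (polyhedron A b) x → (integerPoints (polyhedron A b)).Nonempty →
        ∃ z, IsOptimal a (integerPoints (polyhedron A b)) z ∧
          ∑ j, |x j - z j| ≤ (C * D) ^ m) ∧
    (∀ (m : ℕ) (D : ℝ), 1 ≤ m → 3 ≤ D → ∃ (n : ℕ) (A : Matrix (Fin m) (Fin n) ℤ)
      (b : Fin m → ℤ) (a x : Fin n → ℝ), ColNormLE A D ∧
        x ∈ (polyhedron A b).extremePoints ℝ ∧ IsOptimal a (polyhedron A b) x ∧
        (integerPoints (polyhedron A b)).Nonempty ∧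
        ∀ z, IsOptimal a (integerPoints (polyhedron A b)) z →
          (c * D) ^ m ≤ ∑ j, |x j - z j|) :=
  main

end Vale.Agent.Results.P262.GraverNorm
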