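import Vale.Agent.P262.H691.Final

open scoped ENNReal

namespace Vale.Agent.Results.P262.SteinitzLpOrder

open Vale.Agent.P262 Vale.Agent.P262.H691

/-- Steinitz constants and signed prefix constants of `ℓ_2^d` (the constants `S_2(d)` and `σ(d)` of
the problem), of all `ℓ_p^d`, and of all normed spaces at given Banach–Mazur distance from a
subspace of `ℓ_2^d`, with absolute constants `c, C > 0`. -/
theorem result : ∃ c C : ℝ, 0 < c ∧ 0 < C ∧ ∀ d : ℕ, 1 ≤ d →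
    -- (1) the two constants `S_2(d)` and `σ(d)` of the problem
    ((ENNReal.ofReal (c * Real.sqrt d) ≤ steinitzConst d ∧
        steinitzConst d ≤ ENNReal.ofReal (C * Real.sqrt d)) ∧
      (ENNReal.ofReal (Real.sqrt d) ≤ signedConst d ∧
        signedConst d ≤ ENNReal.ofReal (C * (Real.sqrt d * Real.log (d + 1))))) ∧
    -- (2) `ℓ_p^d` for `1 ≤ p ≤ 2`: both constants, the first one sharp
    (∀ (p : ℝ≥0∞) [Fact (1 ≤ p)], p ≤ 2 →
      (ENNReal.ofReal (c * (d : ℝ) ^ (1 / p.toReal)) ≤ steinitz (PiLp p (fun _ : Fin d => ℝ)) ∧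
        steinitz (PiLp p (fun _ : Fin d => ℝ)) ≤ ENNReal.ofReal (C * (d : ℝ) ^ (1 / p.toReal))) ∧
      (ENNReal.ofReal ((d : ℝ) ^ (1 / p.toReal)) ≤ signed (PiLp p (fun _ : Fin d => ℝ)) ∧
        signed (PiLp p (fun _ : Fin d => ℝ)) ≤
          ENNReal.ofReal (C * ((d : ℝ) ^ (1 / p.toReal) * Real.log (d + 1))))) ∧
    -- (3) `ℓ_p^d` for `2 ≤ p ≤ ∞` (for `p = ∞` the exponent `1 - 1 / p.toReal` is `1`)
    (∀ (p : ℝ≥0∞) [Fact (1 ≤ p)], 2 ≤ p →
      (ENNReal.ofReal (c * Real.sqrt d) ≤ steinitz (PiLp p (fun _ : Fin d => ℝ)) ∧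
        steinitz (PiLp p (fun _ : Fin d => ℝ)) ≤
          ENNReal.ofReal (C * (d : ℝ) ^ (1 - 1 / p.toReal))) ∧
      (ENNReal.ofReal (c * Real.sqrt d) ≤ signed (PiLp p (fun _ : Fin d => ℝ)) ∧
        signed (PiLp p (fun _ : Fin d => ℝ)) ≤
          ENNReal.ofReal (C * ((d : ℝ) ^ (1 - 1 / p.toReal) * Real.log (d + 1))))) ∧
    -- (4) every normed space at distance at most `D` from a subspace of `ℓ_2^d`, and families
    -- with arbitrary sum
    (∀ (E : Type) [NormedAddCommGroup E] [NormedSpace ℝ E]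
        (T : E →ₗ[ℝ] EuclideanSpace ℝ (Fin d)) (D : ℝ), 0 ≤ D →
        (∀ x, ‖T x‖ ≤ ‖x‖ ∧ ‖x‖ ≤ D * ‖T x‖) →
      steinitz E ≤ ENNReal.ofReal (C * D * Real.sqrt d) ∧
      signed E ≤ ENNReal.ofReal (C * D * (Real.sqrt d * Real.log (d + 1))) ∧
      ∀ (N : ℕ) (v : Fin N → E), (∀ i, ‖v i‖ ≤ 1) → ∃ π : Equiv.Perm (Fin N), ∀ k : ℕ, k ≤ N →
        ‖prefixSum (fun i => v (π i)) k - ((k : ℝ) / N) • ∑ i, v i‖ ≤ C * D * Real.sqrt d) :=
  steinitz_lp_order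

end Vale.Agent.Results.P262.SteinitzLpOrder
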