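import Vale.Agent.P262.H865.Final

open scoped ENNReal

namespace Vale.Agent.Results.P262.TwoParameters

open Vale.Agent.P262 Vale.Agent.P262.H691 Vale.Agent.P262.H865

/-- The Steinitz constants and the signed prefix constants as functions of the dimension `d` and of
the number `N` of vectors, for `ℓ_2^d` and for all `ℓ_p^d`, `1 ≤ p ≤ 2`, and their versions for
matrices of vectors, with absolute constants `c, C > 0`. -/
theorem result : ∃ c C : ℝ, 0 < c ∧ 0 < C ∧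
    -- (1) the two constants `S_2(d)` and `σ(d)` of the problem
    (∀ d : ℕ, 1 ≤ d →
      (ENNReal.ofReal (c * Real.sqrt d) ≤ steinitzConst d ∧
        steinitzConst d ≤ ENNReal.ofReal (C * Real.sqrt d)) ∧
      (ENNReal.ofReal (Real.sqrt d) ≤ signedConst d ∧
        signedConst d ≤ ENNReal.ofReal (C * (Real.sqrt d * Real.log (d + 1))))) ∧
    -- (2) `S(ℓ_p^d, N)` and `σ(ℓ_p^d, N)` for all `1 ≤ p ≤ 2`, all `d` and all `N`
    (∀ (p : ℝ≥0∞) [Fact (1 ≤ p)], p ≤ 2 → ∀ d N : ℕ, 1 ≤ d →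
      (2 ≤ N → ENNReal.ofReal (c * ((min d N : ℕ) : ℝ) ^ (1 / p.toReal)) ≤
        steinitzN (PiLp p (fun _ : Fin d => ℝ)) N) ∧
      steinitzN (PiLp p (fun _ : Fin d => ℝ)) N ≤
        ENNReal.ofReal (C * ((min d N : ℕ) : ℝ) ^ (1 / p.toReal)) ∧
      ENNReal.ofReal (((min d N : ℕ) : ℝ) ^ (1 / p.toReal)) ≤
        signedN (PiLp p (fun _ : Fin d => ℝ)) N ∧
      signedN (PiLp p (fun _ : Fin d => ℝ)) N ≤
        ENNReal.ofReal (C * (((min d N : ℕ) : ℝ) ^ (1 / p.toReal) *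
          min (Real.log (d + 1)) (Real.sqrt (1 + Real.log N / d)))) ∧
      (N ≤ d → signedN (PiLp p (fun _ : Fin d => ℝ)) N =
        ENNReal.ofReal ((N : ℝ) ^ (1 / p.toReal)))) ∧
    -- (3) matrices of vectors, in every normed space
    (∀ (E : Type) [NormedAddCommGroup E] [NormedSpace ℝ E] (m n : ℕ), 1 ≤ m →
      steinitzN E n ≤ matrixSteinitz E m n ∧
      matrixSteinitz E m n ≤ 2 * signedN E (n / 2 * m)) ∧
    -- (4) matrices of vectors, in `ℓ_p^d`, `1 ≤ p ≤ 2`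
    (∀ (p : ℝ≥0∞) [Fact (1 ≤ p)], p ≤ 2 → ∀ d m n : ℕ, 1 ≤ d → 1 ≤ m → 2 ≤ n →
      ENNReal.ofReal (c * ((min d (m * n) : ℕ) : ℝ) ^ (1 / p.toReal)) ≤
        matrixSteinitz (PiLp p (fun _ : Fin d => ℝ)) m n ∧
      matrixSteinitz (PiLp p (fun _ : Fin d => ℝ)) m n ≤
        ENNReal.ofReal (C * (((min d (m * n) : ℕ) : ℝ) ^ (1 / p.toReal) *
          min (Real.log (d + 1)) (Real.sqrt (1 + Real.log (m * n : ℕ) / d))))) :=
  two_parameters

end Vale.Agent.Results.P262.TwoParameters
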